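import Vale.Agent.P305LC.Defs

/-!
# Levels of debts
-/

namespace Vale.Agent.P305FL

open Vale.Agent.P305E Vale.Agent.P305C Vale.Agent.P305LC Finset

/-- Lists of pairs (name, amount). -/
abbrev PL : Type := List (ℕ × ℕ)

/-- The mass of the entries whose owner is `x`. -/
def mo (own : ℕ → ℕ) (l : PL) (x : ℕ) : ℕ := (l.map fun p => if own p.1 = x then p.2 else 0).sum

/-- The weight of the levels that are occupied. -/
def occ (L : ℕ) (lv : ℕ → PL) (w : ℕ → ℕ) : ℕ := ∑ j ∈ range L, if lv j = [] then 0 else w j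

/-- The credit of the levels. -/
def pot (L : ℕ) (lv : ℕ → PL) : ℕ := occ L lv fun j => (L - j) * 2 ^ j

/-- The part of the ghost state that is seen by the levels: the bound for names, live names,
owners, volumes, debts. -/
structure Vw where
  nx : ℕ
  live : Finset ℕ
  own : ℕ → ℕ
  vol : ℕ → ℕ
  dt : ℕ → ℕ

/-- Owners are live or `0`; live names own themselves. -/
structure Vw.OK (v : Vw) : Prop where
  zero : 0 ∉ v.live
  own : ∀ z, v.own z ≠ 0 → v.own z ∈ v.live
  self : ∀ x ∈ v.live, v.own x = x ∧ x < v.nx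

/-- The debts are the sum of the levels `lv` and of the pending batch `src`; `Mt` bounds the mass
of all batches so far. -/
structure Lev (L D : ℕ) (v : Vw) (lv : ℕ → PL) (src : PL) (Mt : ℕ) : Prop where
  eq : ∀ x ∈ v.live, v.dt x = ∑ j ∈ range L, mo v.own (lv j) x + mo v.own src x
  le : ∀ j, ∀ x ∈ v.live, mo v.own (lv j) x ≤ D * v.vol x
  pos : ∀ j, ∀ p ∈ lv j, 0 < p.2
  lt : ∀ j, ∀ p ∈ lv j, p.1 < v.nx
  slt : ∀ p ∈ src, p.1 < v.nx
  tot : ∀ j, tot (lv j) < 2 ^ j
  cnt : occ L lv (fun j => 2 ^ j) ≤ 2 * Mt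

variable {L D Mt : ℕ} {v v' : Vw} {lv : ℕ → PL} {src : PL} {own own' : ℕ → ℕ}

@[simp] theorem mo_nil (x : ℕ) : mo own [] x = 0 := rfl

@[simp] theorem mo_cons (p : ℕ × ℕ) (l : PL) (x : ℕ) :
    mo own (p :: l) x = (if own p.1 = x then p.2 else 0) + mo own l x := by simp [mo]

@[simp] theorem mo_append (l l' : PL) (x : ℕ) : mo own (l ++ l') x = mo own l x + mo own l' x := by
  simp [mo]

@[simp] theorem tot_nil : tot [] = 0 := rfl

@[simp] theorem tot_cons (p : ℕ × ℕ) (l : PL) : tot (p :: l) = p.2 + tot l := by simp [tot]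

@[simp] theorem tot_append (l l' : PL) : tot (l ++ l') = tot l + tot l' := by simp [tot]

theorem mo_id (l : PL) (x : ℕ) : mo (fun z => z) l x = ms l x := rfl

theorem mo_le_tot (l : PL) (x : ℕ) : mo own l x ≤ tot l := by
  induction l with
  | nil => simp
  | cons p l ih => rw [mo_cons, tot_cons]; split_ifs <;> omega

theorem mo_congr {l : PL} {x x' : ℕ} (h : ∀ p ∈ l, own p.1 = x ↔ own' p.1 = x') :
    mo own l x = mo own' l x' := by
  induction l with
  | nil => simp
  | cons p l ih =>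
    rw [mo_cons, mo_cons, ih fun q hq => h q (List.mem_cons_of_mem _ hq)]
    simp only [h p List.mem_cons_self]

theorem mo_eq_ms {l : PL} (h : ∀ p ∈ l, own p.1 = p.1) (x : ℕ) : mo own l x = ms l x := by
  rw [← mo_id]
  exact mo_congr fun p hp => by rw [h p hp]

theorem mo_move {l : PL} {x : ℕ} {F : Finset ℕ} (h : ∀ p ∈ l, own' p.1 = x ↔ own p.1 ∈ F) :
    mo own' l x = ∑ y ∈ F, mo own l y := by
  induction l with
  | nil => simp
  | cons p l ih =>
    rw [mo_cons, ih fun q hq => h q (List.mem_cons_of_mem _ hq)]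
    simp only [mo_cons, sum_add_distrib, sum_ite_eq, h p List.mem_cons_self]

/-- The masses of different owners add up to at most the total. -/
theorem sum_mo_le (l : PL) (F : Finset ℕ) : ∑ y ∈ F, mo own l y ≤ tot l := by
  induction l with
  | nil => simp
  | cons p l ih =>
    simp only [mo_cons, sum_add_distrib, sum_ite_eq, tot_cons]
    split_ifs <;> omega

theorem length_le_tot {l : PL} (h : ∀ p ∈ l, 0 < p.2) : l.length ≤ tot l := by
  induction l with
  | nil => simp
  | cons p l ih =>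
    have := ih fun q hq => h q (List.mem_cons_of_mem _ hq)
    have := h p List.mem_cons_self
    rw [tot_cons, List.length_cons]; omega

theorem pot_empty : pot L (fun _ => []) = 0 := by simp [pot, occ]

/-- At the start there are no debts. -/
theorem Lev.init (h : ∀ x ∈ v.live, v.dt x = 0) : Lev L D v (fun _ => []) [] 0 :=
  ⟨fun x hx => by simp [h x hx], by simp, by simp, by simp, by simp, by simp, by simp [occ]⟩

theorem Lev.mono (h : Lev L D v lv src Mt) {Mt' : ℕ} (hM : Mt ≤ Mt') : Lev L D v lv src Mt' :=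
  ⟨h.eq, h.le, h.pos, h.lt, h.slt, h.tot, h.cnt.trans (by omega)⟩

/-- **Transport.** The new live name `x` takes over the old live names in `F x`; `new` is the
list of the new debts. -/
theorem Lev.move (h : Lev L D v lv src Mt) (F : ℕ → Finset ℕ) (new : PL) (hn : v.nx ≤ v'.nx)
    (hnew : ∀ p ∈ new, p.1 < v'.nx) (hF : ∀ x ∈ v'.live, F x ⊆ v.live)
    (ho : ∀ x ∈ v'.live, ∀ z < v.nx, v'.own z = x ↔ v.own z ∈ F x)
    (hd : ∀ x ∈ v'.live, v'.dt x = ∑ y ∈ F x, v.dt y + mo v'.own new x)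
    (hv : ∀ x ∈ v'.live, ∑ y ∈ F x, v.vol y ≤ v'.vol x) : Lev L D v' lv (new ++ src) Mt := by
  have a : ∀ x ∈ v'.live, ∀ l : PL, (∀ p ∈ l, p.1 < v.nx) →
      mo v'.own l x = ∑ y ∈ F x, mo v.own l y := fun x hx l hl =>
    mo_move fun p hp => ho x hx _ (hl p hp)
  refine ⟨fun x hx => ?_, fun j x hx => ?_, h.pos, fun j p hp => (h.lt j p hp).trans_le hn,
    fun p hp => ?_, h.tot, h.cnt⟩
  · rw [hd x hx, mo_append, a x hx src h.slt, sum_congr rfl fun y hy => h.eq y (hF x hx hy),
      sum_add_distrib, sum_comm, sum_congr rfl fun j _ => a x hx (lv j) (h.lt j)]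
    omega
  · rw [a x hx _ (h.lt j)]
    refine (sum_le_sum fun y hy => h.le j y (hF x hx hy)).trans ?_
    rw [← mul_sum]
    exact Nat.mul_le_mul_left _ (hv x hx)
  · rcases List.mem_append.1 hp with hp | hp
    · exact hnew p hp
    · exact (h.slt p hp).trans_le hn

/-- Names are removed or created, nothing is merged: `old x` tells whether the live name `x` was
live before. -/
theorem Lev.keep (h : Lev L D v lv src Mt) (new : PL) (hn : v.nx ≤ v'.nx)
    (hnew : ∀ p ∈ new, p.1 < v'.nx)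
    (ho : ∀ x ∈ v'.live, ∀ z < v.nx, v'.own z = x ↔ v.own z = x ∧ x ∈ v.live)
    (hd : ∀ x ∈ v'.live, v'.dt x = (if x ∈ v.live then v.dt x else 0) + mo v'.own new x)
    (hv : ∀ x ∈ v'.live, x ∈ v.live → v.vol x ≤ v'.vol x) : Lev L D v' lv (new ++ src) Mt := by
  refine h.move (fun x => if x ∈ v.live then {x} else ∅) new hn hnew (fun x _ => ?_)
    (fun x hx z hz => ?_) (fun x hx => ?_) fun x hx => ?_
  · split_ifs with hx <;> simp [hx]
  · rw [ho x hx z hz]; split_ifs with hx' <;> simp [hx']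
  · rw [hd x hx]; split_ifs <;> simp
  · split_ifs with hx'
    · simpa using hv x hx hx'
    · simp

/-- The debts are bounded by the volume, up to the pending batch. -/
theorem Lev.dt_le (h : Lev L D v lv src Mt) {x : ℕ} (hx : x ∈ v.live) :
    v.dt x ≤ L * D * v.vol x + mo v.own src x := by
  rw [h.eq x hx]
  have := sum_le_card_nsmul (range L) (fun j => mo v.own (lv j) x) (D * v.vol x)
    fun j _ => h.le j x hx
  rw [card_range, smul_eq_mul, ← mul_assoc] at this
  omega

theorem Lev.sum_dt_le (h : Lev L D v lv src Mt) {T : Finset ℕ} (hT : T ⊆ v.live) :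
    ∑ x ∈ T, v.dt x ≤ L * D * ∑ x ∈ T, v.vol x + P305LC.tot src := by
  refine (sum_le_sum fun x hx => h.dt_le (hT hx)).trans ?_
  rw [sum_add_distrib, ← mul_sum]
  exact Nat.add_le_add_left (sum_mo_le _ _) _

/-- The debts are small numbers. -/
theorem Lev.dt_lt (h : Lev L D v lv src Mt) {x : ℕ} (hx : x ∈ v.live) :
    v.dt x ≤ 2 ^ L + P305LC.tot src := by
  rw [h.eq x hx]
  have a : ∑ j ∈ range L, mo v.own (lv j) x ≤ ∑ j ∈ range L, 2 ^ j :=
    sum_le_sum fun j _ => (mo_le_tot _ _).trans (h.tot j).le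
  have b := Nat.geomSum_lt (m := 2) (s := range L) (n := L) le_rfl fun k hk => mem_range.1 hk
  have c := mo_le_tot (own := v.own) src x
  omega

/-- One round of a merge: the sources `src` are replaced by `src'` and the donations `don`; live
names may be removed. -/
structure Rd (κ : ℕ) (v : Vw) (src : PL) (v' : Vw) (src' don : PL) : Prop where
  nx : v.nx ≤ v'.nx
  live : v'.live ⊆ v.live
  own : ∀ x ∈ v'.live, ∀ z < v.nx, v'.own z = x ↔ v.own z = x
  vol : ∀ x ∈ v'.live, v.vol x ≤ v'.vol x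
  dt : ∀ x ∈ v'.live, v'.dt x + ms src x = v.dt x + ms src' x + ms don x
  dle : ∀ x ∈ v'.live, ms don x ≤ κ * v.vol x
  slive : ∀ p ∈ src', p.1 ∈ v'.live ∧ 0 < p.2
  dlive : ∀ p ∈ don, p.1 ∈ v'.live ∧ 0 < p.2
  dec : 4 * tot src' ≤ 3 * tot src
  sum : tot src' + tot don ≤ tot src

/-- The specification of the program `rd` for one round; `J st v φ`: the state `st` has the view
`v` and the credit `φ`; `cur` computes owners. -/
structure RdOK {σ : Type} (d B L κ T : ℕ) (cur : σ → ℕ → ℕ) (rd : σ → PL → M (σ × PL × PL))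
    (J : σ → Vw → ℕ → Prop) : Prop where
  ok : ∀ st v φ, J st v φ → v.OK ∧ ∀ z, cur st z = v.own z
  step : ∀ st v φ src, J st v φ → src ≠ [] → (∀ p ∈ src, p.1 ∈ v.live ∧ 0 < p.2) →
    (∀ x ∈ v.live, ms src x ≤ v.dt x) → tot src < 2 ^ L →
    Vt d B (rd st src) fun r t => ∃ v' φ', J r.1 v' φ' ∧ Rd κ v src v' r.2.1 r.2.2 ∧
      t + φ' ≤ φ + (tot src + 1) * T

theorem RdOK.mono {σ : Type} {d B κ T T' : ℕ} {cur : σ → ℕ → ℕ} {rd : σ → PL → M (σ × PL × PL)}
    {J : σ → Vw → ℕ → Prop} (h : RdOK d B L κ T cur rd J) (hT : T ≤ T') :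
    RdOK d B L κ T' cur rd J :=
  ⟨h.ok, fun st v φ src a1 a2 a3 a4 a5 => (h.step st v φ src a1 a2 a3 a4 a5).mono
    fun _ _ ⟨v', φ', b1, b2, b3⟩ =>
      ⟨v', φ', b1, b2, b3.trans (Nat.add_le_add_left (Nat.mul_le_mul_left _ hT) _)⟩⟩

end Vale.Agent.P305FL
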