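import Vale.Agent.P305FL.Flush
import Vale.Agent.P305BG.Arcs
import Vale.Agent.P305N.Basic

/-!
# A failed round of a merge: the dead part carries a quarter of the sources away
-/

namespace Vale.Agent.P305FL

open Vale.Agent.P305E Vale.Agent.P305C Vale.Agent.P305LC Vale.Agent.P305BL Vale.Agent.P305BG Finset

theorem sum_split {l l0 l1 : List ℕ} (h0 : l0.Sublist l) (h1 : l1.Sublist l)
    (h : ∀ x ∈ l, x ∈ l1 ↔ x ∉ l0) (f : ℕ → ℕ) :
    ∑ x ∈ l.toFinset, f x = ∑ x ∈ l0.toFinset, f x + ∑ x ∈ l1.toFinset, f x := by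
  rw [← sum_union]
  · refine sum_congr ?_ fun _ _ => rfl
    ext x
    simp only [List.mem_toFinset, mem_union]
    refine ⟨fun hx => ?_, fun hx => hx.elim (fun a => h0.subset a) fun a => h1.subset a⟩
    by_cases a : x ∈ l0
    · exact Or.inl a
    · exact Or.inr ((h x hx).2 a)
  · exact disjoint_right.2 fun x hx hx' =>
      (h x (h1.subset (List.mem_toFinset.1 hx))).1 (List.mem_toFinset.1 hx) (List.mem_toFinset.1 hx')

theorem ms_filter (l : PL) (q : ℕ → Bool) {x : ℕ} (hx : q x = true) :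
    ms (l.filter fun p => q p.1) x = ms l x := by
  induction l with
  | nil => rfl
  | cons p l ih =>
    rw [List.filter_cons]
    split_ifs with h
    · rw [P305N.ms_cons, P305N.ms_cons, ih]
    · rw [P305N.ms_cons, ih, if_neg fun e : p.1 = x => h (e ▸ hx), zero_add]

theorem tot_filter (l : PL) (q : ℕ → Bool) {Z : Finset ℕ} (hZ : ∀ x ∈ Z, q x = false) :
    tot (l.filter fun p => q p.1) + ∑ x ∈ Z, ms l x ≤ tot l := by
  rw [P305N.sum_ms]
  induction l with
  | nil => simp
  | cons p l ih =>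
    rw [List.filter_cons, List.map_cons, List.sum_cons, tot_cons]
    split_ifs with h h'
    · rw [hZ _ h'] at h; cases h
    · rw [tot_cons]; omega
    · omega
    · omega

/-- The new sources after the dead part `D` of the closed set was removed. -/
theorem dead_dec {V : P305N.Vw} {b U : ℕ} {Ps Ys : List ℕ} {E : List Tr} {D L : Pc} {src lk : PL}
    (ok : V.OK b) (hc : P305N.ClsL V (Ps, Ys)) (hd : DeadRes Ps Ys E D L)
    (hs : ∀ x, ms src x ≤ V.dt x)
    (hf : 4 * (U * Ps.length + V.dts Ps.toFinset Ys.toFinset) + tot src ≤ 4 * (U * Ys.length +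
      (∑ x ∈ Ps.toFinset, ms src x + ∑ x ∈ Ys.toFinset, ms src x)))
    (hl : tot lk + U * D.2.1.length ≤ U * D.1.length + V.dts D.1.toFinset D.2.1.toFinset)
    (q : ℕ → Bool) (hq : ∀ x, x ∈ D.1 ∨ x ∈ D.2.1 → q x = false) :
    4 * tot (lk ++ src.filter fun p => q p.1) ≤ 3 * tot src := by
  have a1 := sum_split hd.subP.1 hd.subP.2 hd.parP
  have a2 := sum_split hd.subY.1 hd.subY.2 hd.parY
  have a3 : L.2.1.length ≤ L.1.length := by
    rcases hd.sig with ⟨_, e⟩ | e
    · simp [e]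
    · omega
  have a4 := Nat.mul_le_mul_left U a3
  have a5 : ∑ x ∈ L.1.toFinset, ms src x ≤ ∑ x ∈ L.1.toFinset, V.dt x := sum_le_sum fun x _ => hs x
  have a6 : ∑ x ∈ L.2.1.toFinset, ms src x ≤ ∑ x ∈ L.2.1.toFinset, V.dt x :=
    sum_le_sum fun x _ => hs x
  have a7 := tot_filter src q (Z := D.1.toFinset ∪ D.2.1.toFinset) fun x hx => hq x (by simpa using hx)
  rw [sum_union (disjoint_right.2 fun x hx hx' => ok.dis x
    (hc.2.2.sI (List.mem_toFinset.2 (hd.subY.1.subset (List.mem_toFinset.1 hx))))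
    (hc.2.2.sP (List.mem_toFinset.2 (hd.subP.1.subset (List.mem_toFinset.1 hx')))))] at a7
  unfold P305N.Vw.dts at hf hl
  rw [a1, a2, a1, a2, ← hd.lenP, ← hd.lenY, mul_add U, mul_add U] at hf
  rw [tot_append]
  omega

end Vale.Agent.P305FL
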