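import Vale.Agent.P305FL.Defs

/-!
# Merging a batch of debts into the levels
-/

namespace Vale.Agent.P305FL

open Vale.Agent.P305E Vale.Agent.P305C Vale.Agent.P305LC Finset

/-- Entries are renamed to their owners; empty entries and dead names are dropped. -/
def ren (own : ℕ → ℕ) (l : PL) : PL :=
  l.filterMap fun p => if own p.1 = 0 ∨ p.2 = 0 then none else some (own p.1, p.2)

/-- One step of `absorb`. -/
def astep (s : Arr PL × ℕ × PL) : M ((Arr PL × ℕ × PL) ⊕ (Arr PL × ℕ × PL)) :=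
  if (s.1.get s.2.1).isEmpty = true then pure (.inr s) else
    appendP (s.1.get s.2.1) s.2.2 >>= fun l => num (s.2.1 + 1) >>= fun j =>
      pure (.inl (s.1.set s.2.1 [], j, l))

section prog
variable {σ : Type}

/-- One step of the merge. -/
def rstep (rd : σ → PL → M (σ × PL × PL)) (s : σ × PL × PL) : M ((σ × PL × PL) ⊕ (σ × PL)) :=
  if s.2.1.isEmpty = true then pure (.inr (s.1, s.2.2)) else
    rd s.1 s.2.1 >>= fun r => appendP r.2.2 s.2.2 >>= fun a => pure (.inl (r.1, r.2.1, a))

/-- The batch `src` and the occupied levels from its size on are merged into the next level. -/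
def flush (cur : σ → ℕ → ℕ) (rd : σ → PL → M (σ × PL × PL)) (L : ℕ) (st : σ) (lv : Arr PL)
    (src : PL) : M (σ × Arr PL) :=
  sumP Prod.snd src >>= fun m => if m = 0 then pure (st, lv) else
    loopM astep (L + 1) (lv, Nat.size m, src) >>= fun a =>
    filterMapP (fun p : ℕ × ℕ => if cur st p.1 = 0 ∨ p.2 = 0 then none else some (cur st p.1, p.2))
      a.2.2 >>= fun s =>
    loopM (rstep rd) (3 * L + 1) (st, s, []) >>= fun r => pure (r.1, a.1.set a.2.1 r.2)

theorem impl_flush [Rep σ] {α : Type} [Rep α] {cur : σ → ℕ → ℕ}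
    {rd : α → σ → PL → M (σ × PL × PL)} (hc : Pure fun p : σ × ℕ => cur p.1 p.2)
    (hr : Impl fun p : α × σ × PL => rd p.1 p.2.1 p.2.2)
    {L : α → ℕ} {st : α → σ} {lv : α → Arr PL} {src : α → PL} (hs : Pure st) (hl : Pure lv)
    (hsrc : Pure src) : Impl fun a => flush cur (rd a) (L a) (st a) (lv a) (src a) := by
  have h1 : ∀ {β : Type} [Rep β] {f : β → σ} {g : β → ℕ}, Pure f → Pure g →
      Pure fun a => cur (f a) (g a) := fun hf hg => hc.comp (g := fun a => (_, _)) (hf.pair hg)
  unfold flush astep rstep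
  refine Impl.bind (by fun_prop) (Impl.ite (by fun_prop) (by fun_prop) (Impl.bind ?_ (Impl.bind ?_
    (Impl.bind ?_ (by fun_prop)))))
  · exact Impl.loopM (Impl.ite (PPred.of_bool (by fun_prop)) (by fun_prop) (by fun_prop))
      (by fun_prop)
  · have := h1 (β := ((α × ℕ) × Arr PL × ℕ × PL) × ℕ × ℕ) (f := fun a => st a.1.1.1)
      (g := fun a => a.2.1) (by fun_prop) (by fun_prop)
    exact Impl.filterMapP (Pure.ite (by fun_prop) (by fun_prop) (by fun_prop)) (by fun_prop)
  · exact Impl.loopM (Impl.ite (PPred.of_bool (by fun_prop)) (by fun_prop)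
      (Impl.bind (hr.comp (g := fun a => (_, _, _)) (by fun_prop)) (by fun_prop))) (by fun_prop)

end prog

variable {L D Mt : ℕ} {v v' : Vw} {lv : ℕ → PL} {src : PL} {own : ℕ → ℕ}

theorem ms_ren (l : PL) {x : ℕ} (hx : x ≠ 0) : ms (ren own l) x = mo own l x := by
  induction l with
  | nil => rfl
  | cons p l ih =>
    rw [mo_cons, ← ih, ren, List.filterMap_cons]
    split_ifs with h1 h2 h2
    · rcases h1 with h1 | h1
      · exact absurd (h2 ▸ h1) hx
      · simp [h1, ren]
    · simp [ren]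
    · simp [ms, ren, h2]
    · simp [ms, ren, h2]

theorem tot_ren (l : PL) : tot (ren own l) ≤ tot l := by
  induction l with
  | nil => simp [ren]
  | cons p l ih =>
    rw [ren, List.filterMap_cons]
    split_ifs
    · rw [tot_cons]; exact ih.trans (by omega)
    · simp only [tot_cons]; exact Nat.add_le_add_left ih _

theorem mem_ren (h : v.OK) {l : PL} {p : ℕ × ℕ} (hp : p ∈ ren v.own l) : p.1 ∈ v.live ∧ 0 < p.2 := by
  obtain ⟨q, -, hq⟩ := List.mem_filterMap.1 hp
  split_ifs at hq with h1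
  obtain rfl := Option.some.inj hq
  exact ⟨h.own _ fun e => h1 (Or.inl e), Nat.pos_of_ne_zero fun e => h1 (Or.inr e)⟩

theorem Lev.ren (h : Lev L D v lv src Mt) (hv : v.OK) : Lev L D v lv (ren v.own src) Mt := by
  refine ⟨fun x hx => ?_, h.le, h.pos, h.lt, fun p hp => (hv.self _ (mem_ren hv hp).1).2, h.tot,
    h.cnt⟩
  rw [h.eq x hx, mo_eq_ms fun p hp => (hv.self _ (mem_ren hv hp).1).1,
    ms_ren _ fun e => hv.zero (e ▸ hx)]

theorem sum_update (f : ℕ → PL → ℕ) {j : ℕ} (hj : j < L) (X : PL) :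
    ∑ i ∈ range L, f i (Function.update lv j X i) + f j (lv j) =
      ∑ i ∈ range L, f i (lv i) + f j X := by
  rw [← add_sum_erase _ _ (mem_range.2 hj), ← add_sum_erase _ (fun i => f i (lv i)) (mem_range.2 hj),
    Function.update_self, sum_congr rfl fun i hi => by
      rw [Function.update_of_ne (ne_of_mem_erase hi)]]
  omega

theorem occ_update (w : ℕ → ℕ) {j : ℕ} (hj : j < L) (X : PL) :
    occ L (Function.update lv j X) w + (if lv j = [] then 0 else w j) =
      occ L lv w + if X = [] then 0 else w j :=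
  sum_update (fun i l => if l = [] then 0 else w i) hj X

theorem le_occ (w : ℕ → ℕ) {j : ℕ} (hj : j < L) (h : lv j ≠ []) : w j ≤ occ L lv w := by
  have := single_le_sum (f := fun j => if lv j = [] then 0 else w j) (fun _ _ => Nat.zero_le _)
    (mem_range.2 hj)
  rwa [if_neg h] at this

/-- The level `j` is replaced by `X`, the batch by `src'`. -/
theorem Lev.update (h : Lev L D v lv src Mt) {j : ℕ} (hj : j < L) {X src' : PL} {Mt' : ℕ}
    (hn : v.nx ≤ v'.nx) (hl : v'.live ⊆ v.live)
    (ho : ∀ x ∈ v'.live, ∀ z < v.nx, v'.own z = x ↔ v.own z = x)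
    (hv : ∀ x ∈ v'.live, v.vol x ≤ v'.vol x)
    (he : ∀ x ∈ v'.live, v'.dt x + mo v.own (lv j) x + mo v.own src x =
      v.dt x + mo v'.own X x + mo v'.own src' x)
    (hle : ∀ x ∈ v'.live, mo v'.own X x ≤ D * v'.vol x) (hX : ∀ p ∈ X, 0 < p.2 ∧ p.1 < v'.nx)
    (hs : ∀ p ∈ src', p.1 < v'.nx) (ht : P305LC.tot X < 2 ^ j)
    (hc : occ L (Function.update lv j X) (fun j => 2 ^ j) ≤ 2 * Mt') :
    Lev L D v' (Function.update lv j X) src' Mt' := by
  have a : ∀ i, ∀ x ∈ v'.live, mo v'.own (lv i) x = mo v.own (lv i) x := fun i x hx =>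
    mo_congr fun p hp => ho x hx _ (h.lt i p hp)
  refine ⟨fun x hx => ?_, fun i x hx => ?_, fun i p hp => ?_, fun i p hp => ?_, hs, fun i => ?_, hc⟩
  · have := sum_update (lv := lv) (fun _ l => mo v'.own l x) hj X
    have b := h.eq x (hl hx)
    have c := he x hx
    rw [sum_congr rfl fun i _ => a i x hx, a j x hx] at this
    omega
  · by_cases e : i = j
    · subst e; rw [Function.update_self]; exact hle x hx
    · rw [Function.update_of_ne e, a i x hx]
      exact (h.le i x (hl hx)).trans (Nat.mul_le_mul_left _ (hv x hx))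
  · by_cases e : i = j
    · subst e; rw [Function.update_self] at hp; exact (hX p hp).1
    · rw [Function.update_of_ne e] at hp; exact h.pos i p hp
  · by_cases e : i = j
    · subst e; rw [Function.update_self] at hp; exact (hX p hp).2
    · rw [Function.update_of_ne e] at hp; exact (h.lt i p hp).trans_le hn
  · by_cases e : i = j
    · subst e; rwa [Function.update_self]
    · rw [Function.update_of_ne e]; exact h.tot i

/-- The invariant of `absorb`. -/
structure Ab (L D : ℕ) (v : Vw) (lv : ℕ → PL) (src : PL) (Mt : ℕ) (s : Arr PL × ℕ × PL) (t : ℕ) :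
    Prop where
  lev : Lev L D v s.1.get s.2.2 (Mt + tot src)
  lt : s.2.1 < L
  tot : P305LC.tot s.2.2 < 2 ^ s.2.1
  cnt : occ L s.1.get (fun j => 2 ^ j) + 2 ^ s.2.1 ≤ 2 * (Mt + P305LC.tot src)
  pot : pot L s.1.get + (L - s.2.1 + 1) * 2 ^ s.2.1 ≤ pot L lv + 2 * (L + 1) * P305LC.tot src
  len : s.2.2.length ≤ src.length + 2 ^ s.2.1
  time : t ≤ 2 ^ s.2.1

theorem absorb_tri {B : ℕ} {a : Arr PL} (h : Lev L D v a.get src Mt) (h0 : tot src ≠ 0)
    (hL : 2 * (Mt + tot src) < 2 ^ L) (hB : L ≤ B) :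
    Tri ⟨B, true⟩ (loopM astep (L + 1) (a, Nat.size (tot src), src)) fun s t =>
      Ab L D v a.get src Mt s t ∧ s.1.get s.2.1 = [] := by
  have h1 : 2 ^ Nat.size (tot src) ≤ 2 * tot src := by
    have p : 0 < Nat.size (tot src) := Nat.size_pos.2 (Nat.pos_of_ne_zero h0)
    have := Nat.lt_size.1 (show Nat.size (tot src) - 1 < Nat.size (tot src) by omega)
    rw [show Nat.size (tot src) = Nat.size (tot src) - 1 + 1 by omega, pow_succ]
    omega
  refine Tri.loopM (Ab L D v a.get src Mt) (fun s => L - s.2.1) ?_ ?_ (by simp only; omega)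
  · rintro ⟨b, j, l⟩ t I
    unfold astep
    rw [Tri_ite]
    refine ⟨fun e => (Tri_pure _ _).2 ⟨by simpa using I, by simpa using e⟩, fun e => ?_⟩
    have e : b.get j ≠ [] := by simpa using e
    have c1 := occ_update (lv := b.get) (fun j => 2 ^ j) I.lt []
    have c2 := occ_update (lv := b.get) (fun j => (L - j) * 2 ^ j) I.lt []
    rw [if_neg e, if_pos rfl] at c1 c2
    have c3 := le_occ (lv := b.get) (fun j => 2 ^ j) I.lt e
    have c4 := I.cnt
    have c5 := I.lev.tot j
    have c6 := length_le_tot (I.lev.pos j)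
    have c7 := I.tot
    have c8 := I.len
    have c9 := I.time
    have c10 := I.pot
    have c11 := I.lt
    simp only at *
    have hj : j + 1 < L := by
      have : 2 ^ (j + 1) < 2 ^ L := by rw [pow_succ]; omega
      exact (Nat.pow_lt_pow_iff_right (by norm_num)).1 this
    simp only [Tri_bind, Tri_appendP, Tri_num, Tri_pure, Sum.elim_inl]
    refine ⟨by omega, ⟨?_, hj, ?_, ?_, ?_, ?_, ?_⟩, by omega⟩
    · simp only [Arr.set_get_fun]
      refine I.lev.update I.lt le_rfl Subset.rfl (fun _ _ _ _ => Iff.rfl) (fun _ _ => le_rfl)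
        (fun x _ => by simp only [mo_append, mo_nil]; omega) (by simp) (by simp) (fun p hp => ?_)
        (by simp) (by simp only; omega)
      rcases List.mem_append.1 hp with hp | hp
      · exact I.lev.lt j p hp
      · exact I.lev.slt p hp
    · simp only [tot_append, pow_succ]; omega
    · simp only [Arr.set_get_fun, pow_succ]; omega
    · simp only [Arr.set_get_fun, pow_succ]
      unfold P305FL.pot at *
      have : (L - (j + 1) + 1) * (2 ^ j * 2) ≤ (L - j) * 2 ^ j + (L - j + 1) * 2 ^ j := by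
        rw [show L - (j + 1) + 1 = L - j by omega]
        nlinarith [Nat.zero_le (2 ^ j)]
      omega
    · simp only [List.length_append, pow_succ]; omega
    · simp only [pow_succ]; omega
  · have := h.cnt
    refine ⟨h.mono (by omega), ?_, Nat.lt_size_self _, by simp only; omega, ?_, by simp, by simp⟩
    · have : 2 ^ Nat.size (tot src) < 2 ^ L := by omega
      exact (Nat.pow_lt_pow_iff_right (by norm_num)).1 this
    · have : (L - Nat.size (tot src) + 1) * 2 ^ Nat.size (tot src) ≤ (L + 1) * (2 * tot src) :=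
        Nat.mul_le_mul (by omega) h1
      simp only
      nlinarith

theorem size_cube {s s' : ℕ} (h : 4 * s' ≤ 3 * s) (h0 : 0 < s) :
    Nat.size (s' ^ 3) + 1 ≤ Nat.size (s ^ 3) := by
  have a : (4 * s') ^ 3 ≤ (3 * s) ^ 3 := Nat.pow_le_pow_left h 3
  rw [mul_pow, mul_pow] at a
  have p : 0 < Nat.size (s ^ 3) := Nat.size_pos.2 (by positivity)
  have b := Nat.lt_size_self (s ^ 3)
  rw [show Nat.size (s ^ 3) = Nat.size (s ^ 3) - 1 + 1 by omega, pow_succ 2] at b
  have : Nat.size (s' ^ 3) ≤ Nat.size (s ^ 3) - 1 := Nat.size_le.2 (by norm_num at a; omega)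
  omega

variable {σ : Type} {d B κ T : ℕ} {cur : σ → ℕ → ℕ} {rd : σ → PL → M (σ × PL × PL)}
  {J : σ → Vw → ℕ → Prop}

theorem rounds_vt (H : RdOK d B L κ T cur rd J) (hD : 3 * L * κ ≤ D) {st : σ} {φ j : ℕ}
    (hJ : J st v φ) (h : Lev L D v lv src Mt) (hj : j < L) (he : lv j = [])
    (hc : occ L lv (fun j => 2 ^ j) + 2 ^ j ≤ 2 * Mt) (ht : tot src < 2 ^ j)
    (hs : ∀ p ∈ src, p.1 ∈ v.live ∧ 0 < p.2) :
    Vt d B (loopM (rstep rd) (3 * L + 1) (st, src, [])) fun r t => ∃ v' φ', J r.1 v' φ' ∧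
      Lev L D v' (Function.update lv j r.2) [] Mt ∧ t + φ' ≤ φ + (8 * T + 8) * tot src := by
  have hjL : 2 ^ j ≤ 2 ^ L := Nat.pow_le_pow_right (by norm_num) hj.le
  have h3 : Nat.size (tot src ^ 3) ≤ 3 * L := by
    rw [Nat.size_le, mul_comm, pow_mul]
    exact Nat.pow_lt_pow_left (by omega) (by norm_num)
  refine Vt.loopM (fun s t => ∃ v' φ' i, J s.1 v' φ' ∧
      Lev L D v' (Function.update lv j s.2.2) s.2.1 Mt ∧ (∀ p ∈ s.2.1, p.1 ∈ v'.live ∧ 0 < p.2) ∧
      (∀ x ∈ v'.live, mo v'.own s.2.2 x ≤ i * κ * v'.vol x) ∧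
      i + Nat.size (tot s.2.1 ^ 3) ≤ 3 * L ∧ tot s.2.1 + tot s.2.2 < 2 ^ j ∧
      t + φ' + (8 * T + 8) * tot s.2.1 ≤ φ + (8 * T + 8) * tot src)
    (fun s => Nat.size (tot s.2.1 ^ 3)) ?_ ?_ (by simp only; omega)
  · rintro ⟨s, l, acc⟩ t ⟨w, ψ, i, i1, i2, i3, i4, i5, i6, i7⟩
    simp only at i1 i2 i3 i4 i5 i6 i7
    unfold rstep
    refine Vt.ite (fun e => Vt.pure ?_) fun e => ?_
    · have e : l = [] := by simpa using e
      subst e
      exact ⟨w, ψ, i1, i2, by simpa using i7⟩
    have e : l ≠ [] := by simpa using e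
    obtain ⟨ok, -⟩ := H.ok _ _ _ i1
    have m1 : ∀ x, mo w.own l x = ms l x := mo_eq_ms fun p hp => (ok.self _ (i3 p hp).1).1
    have p0 : 0 < tot l := (List.length_pos_iff.2 e).trans_le (length_le_tot fun p hp => (i3 p hp).2)
    refine (H.step s w ψ l i1 e i3 (fun x hx => ?_) (by omega)).bind ?_
    · rw [i2.eq x hx, m1]; omega
    rintro ⟨s', l', dn⟩ t' ⟨w', ψ', j1, R, j2⟩
    simp only at j1 R j2
    obtain ⟨ok', -⟩ := H.ok _ _ _ j1
    have m2 : ∀ x, mo w'.own l' x = ms l' x := mo_eq_ms fun p hp => (ok'.self _ (R.slive p hp).1).1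
    have m3 : ∀ x, mo w'.own dn x = ms dn x := mo_eq_ms fun p hp => (ok'.self _ (R.dlive p hp).1).1
    have m4 : ∀ x ∈ w'.live, mo w'.own acc x = mo w.own acc x := fun x hx =>
      mo_congr fun p hp => R.own x hx _ (i2.lt j p (by rwa [Function.update_self]))
    have sz := size_cube R.dec p0
    have m5 : ∀ x ∈ w'.live, mo w'.own (dn ++ acc) x ≤ (i + 1) * κ * w'.vol x := fun x hx => by
      rw [mo_append, m3, m4 x hx]
      have a := R.dle x hx
      have b := i4 x (R.live hx)
      have c := Nat.mul_le_mul_left ((i + 1) * κ) (R.vol x hx)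
      nlinarith
    have dl := length_le_tot fun p hp => (R.dlive p hp).2
    have r1 := R.dec
    have r2 := R.sum
    refine Vt.of_tri (cn := true) ?_
    simp only [Tri_bind, Tri_appendP, Tri_pure, Sum.elim_inl]
    refine ⟨⟨w', ψ', i + 1, j1, ?_, R.slive, m5, by omega, by rw [tot_append]; omega, ?_⟩, by omega⟩
    · have := i2.update (v' := w') hj (X := dn ++ acc) (src' := l') (Mt' := Mt) R.nx R.live R.own
        R.vol (fun x hx => ?_) (fun x hx => (m5 x hx).trans ?_) (fun p hp => ?_)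
        (fun p hp => (ok'.self _ (R.slive p hp).1).2) (by rw [tot_append]; omega) ?_
      · rwa [Function.update_idem] at this
      · have := R.dt x hx
        rw [Function.update_self, mo_append, m1, m2, m3, m4 x hx]
        omega
      · exact Nat.mul_le_mul_right _ ((Nat.mul_le_mul_right _ (by omega)).trans hD)
      · rcases List.mem_append.1 hp with hp | hp
        · exact ⟨(R.dlive p hp).2, (ok'.self _ (R.dlive p hp).1).2⟩
        · have hp' : p ∈ Function.update lv j acc j := by rwa [Function.update_self]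
          exact ⟨i2.pos j p hp', (i2.lt j p hp').trans_le R.nx⟩
      · rw [Function.update_idem]
        have := occ_update (lv := lv) (fun j => 2 ^ j) hj (dn ++ acc)
        rw [if_pos he] at this
        split_ifs at this <;> omega
    · have a : (tot l + 1) * T ≤ 2 * tot l * T := Nat.mul_le_mul_right _ (by omega)
      have b : (2 * T + 2) * (4 * tot l') ≤ (2 * T + 2) * (3 * tot l) := Nat.mul_le_mul_left _ r1
      nlinarith
  · refine ⟨v, φ, 0, hJ, ?_, hs, by simp, by simpa using h3, by simpa using ht, by simp⟩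
    simp only
    rwa [← he, Function.update_eq_self]

/-- **The batch is merged into the levels.** -/
theorem flush_vt (H : RdOK d B L κ T cur rd J) (hD : 3 * L * κ ≤ D) {st : σ} {φ : ℕ} {a : Arr PL}
    (hJ : J st v φ) (h : Lev L D v a.get src Mt) (hL : 2 * (Mt + tot src) < 2 ^ L)
    (hB : 2 ^ L ≤ B) :
    Vt d B (flush cur rd L st a src) fun r t => ∃ v' φ', J r.1 v' φ' ∧
      Lev L D v' r.2.get [] (Mt + tot src) ∧
      t + φ' + (8 * T + 10) * pot L r.2.get ≤
        φ + (8 * T + 10) * (pot L a.get + 2 * (L + 1) * tot src) + 2 * src.length := by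
  unfold flush
  refine Vt.tbind' ((Tri_sumP _ _ _).2 ⟨?_, ?_⟩)
  · show tot src ≤ B
    omega
  show Vt d B (if tot src = 0 then _ else _) _
  refine Vt.ite (fun e => Vt.pure ⟨v, φ, hJ, ?_, ?_⟩) fun e => ?_
  · refine ⟨fun x hx => ?_, h.le, h.pos, h.lt, by simp, h.tot, h.cnt.trans (by omega)⟩
    have := mo_le_tot (own := v.own) src x
    rw [h.eq x hx, mo_nil, show mo v.own src x = 0 by omega]
  · simp only [e, mul_zero, add_zero]; omega
  refine Vt.tbind (absorb_tri h e hL ((Nat.lt_two_pow_self).le.trans hB)) ?_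
  rintro ⟨b, j, l⟩ t ⟨I, he⟩
  obtain ⟨ok, hc⟩ := H.ok _ _ _ hJ
  refine Vt.tbind' ((Tri_filterMapP _ _ _).2 ?_)
  simp only [hc]
  have t1 := tot_ren (own := v.own) l
  have t2 := I.tot
  refine (rounds_vt H hD hJ (I.lev.ren ok) I.lt he I.cnt (t1.trans_lt t2)
    fun p hp => mem_ren ok hp).bind ?_
  rintro ⟨s, acc⟩ t' ⟨w, ψ, j1, j2, j3⟩
  refine Vt.pure ⟨w, ψ, j1, by simpa only [Arr.set_get_fun] using j2, ?_⟩
  have c := occ_update (lv := b.get) (fun j => (L - j) * 2 ^ j) I.lt acc
  have c1 := I.pot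
  have c2 := I.len
  have c3 := I.time
  simp only [Arr.set_get_fun] at *
  rw [if_pos he] at c
  have c4 : pot L (Function.update b.get j acc) + 2 ^ j ≤ pot L a.get + 2 * (L + 1) * tot src := by
    unfold pot at *
    rw [add_mul] at c1
    split_ifs at c <;> omega
  have c5 := Nat.mul_le_mul_left (8 * T + 10) c4
  have c6 := Nat.mul_le_mul_left (8 * T + 8) (t1.trans t2.le)
  nlinarith

end Vale.Agent.P305FL
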