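import Vale.Agent.P305FL.Round
import Vale.Agent.P305BL.Dead
import Vale.Agent.P305GL.Basic

/-!
# The block FLUSH
-/

namespace Vale.Agent.P305FL

open Vale.Agent.P305E Vale.Agent.P305C Vale.Agent.P305LC Vale.Agent.P305BL Vale.Agent.P305BG
  Vale.Agent.P305GL Finset

variable {β : Type} [Rep β] {E : Env β} {x : Pm} {s : S} {g : Gs} {cur : Option ℕ}

/-- The program. -/
def flushP (E : Env β) (pr : Pr → S → Pc → M (S × PL)) (p : Pr) (s : S) (lv : Arr PL) (src : PL) :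
    M (S × Arr PL) :=
  flush S.res (round E.N E.bm S.ns (fun s n => { s with ns := n }) S.res (pr p) p.b p.U) p.b s lv src

/-- The state during the merge. -/
def Kf (x : Pm) (s : S) (g : Gs) (cur : Option ℕ) (s' : S) (V : P305N.Vw) (v : Vw) (φ : ℕ) : Prop :=
  ∃ g', Core x s' g' cur [] ∧ V = g'.V ∧ v = fv s' g' ∧ φ = x.La * s'.psi x ∧ g'.H.G = g.H.G ∧
    s'.cm = s.cm ∧ bud x s g ≤ bud x s' g'

theorem rem_ok {pr : Pr → S → Pc → M (S × PL)} (hp : PruneOK E pr) (hx : x.OK E) :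
    RemOK x.b x.B x.b x.U (x.Γ ^ 2) S.ns (fun s n => { s with ns := n }) S.res (pr x.toPr)
      (Kf x s g cur) := by
  refine ⟨?_, ?_, ?_⟩
  · rintro s' _ _ _ ⟨g', h, rfl, rfl, -⟩
    refine ⟨h.fv_ok, fun _ => rfl, h.net, rfl, rfl, fun p hp => ?_, fun y hy => h.sz_pos (.inl hy),
      h.dt_le hx⟩
    have := h.deg_le hx hp
    have := h.sz_pos (.inr hp)
    simp only [fv]
    omega
  · rintro s' _ _ _ src rest don n ⟨g', h, rfl, rfl, rfl, h1, h2, h3⟩ a1 a2 - - a5 a6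
    exact ⟨_, h.mov a1 a2 a5 a6, rfl, rfl, rfl, h1, h2, h3⟩
  · rintro s' _ _ _ D ⟨g', h, rfl, rfl, rfl, h1, h2, h3⟩ hD ⟨l, l1, l2⟩
    have l3 := len_le_of_isM l1 fun e he => ((hD.arc.mem e).1 he).1
    refine (hp.spec x s' g' cur D 0 (D.2.1.length - l.length) hx h hD ⟨l, l1, l2, by omega⟩
      (.inl rfl) (by simp)).mono ?_
    rintro ⟨s'', lk⟩ t ⟨g'', k1, k2, k3, k4, k5⟩
    obtain ⟨e1, e2, e3, e4⟩ := k2.same
    simp only at k1 k3 k4 e1 e2 e3 e4
    refine ⟨fv s'' g'', _, ⟨g'', k1, k2.V.symm, rfl, rfl, k2.G.trans h1, k4.trans h2, h3.trans ?_⟩,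
      k2.lack, k2.tot, by simp only [fv, e4, le_refl], fun y hy z _ => ?_,
      fun y _ => by simp only [fv, e3, le_refl], ?_⟩
    · unfold bud
      rw [k3, k4, k2.vj, mul_add x.al, add_zero]
      omega
    · have y0 : y ≠ 0 := fun e => k1.fv_ok.zero (e ▸ hy)
      have yD : ¬ (y ∈ D.1 ∨ y ∈ D.2.1) := by
        have sP := hD.cls.2.2.sP
        have sI := hD.cls.2.2.sI
        simp only [fv, k2.V, P305N.Vw.del, mem_union, mem_sdiff, List.mem_toFinset] at hy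
        rintro (a | a) <;> rcases hy with hy | hy
        · exact h.net.ok.dis y hy.1 (sP (List.mem_toFinset.2 a))
        · exact hy.2 a
        · exact hy.2 a
        · exact h.net.ok.dis y (sI (List.mem_toFinset.2 a)) hy.1
      have ow : ∀ v, s''.own.get v = _ := k2.own
      have vn : s''.vn z = s'.vn z := by simp only [S.vn, e2]
      show s''.res z = y ↔ s'.res z = y
      unfold S.res
      rw [vn, e1, ow]
      split_ifs with c1 c2
      · exact ⟨fun e => absurd e.symm y0, fun e => absurd (e ▸ c2) yD⟩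
      · rfl
      · rfl
    · have a := Nat.mul_le_mul_left x.La k2.psi
      have b : x.Γ ^ 2 ≤ x.La := Nat.pow_le_pow_right (by have := hx.big; omega) (by norm_num)
      have c := Nat.mul_le_mul_right (vs s'.sz.get D) b
      simp only at a ⊢
      rw [mul_add] at a k5
      omega

/-- **The block FLUSH.** -/
theorem flush_ok (h : PRUNE) : FLUSH := fun β _ E => by
  obtain ⟨pr, hp⟩ := h β E
  refine ⟨flushP E pr, ?_, fun x s g cur lv src Mt hx hc hl hM hs => ?_⟩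
  · unfold flushP
    refine impl_flush (by fun_prop) ?_ (by fun_prop) (by fun_prop) (by fun_prop)
    exact impl_round (rem := fun a : (Pr × S × Arr PL × PL) × S × PL => pr a.1.1) E.hN E.hB.impl
      S.pns (by fun_prop) (by fun_prop) (hp.impl.comp (g := fun a => (_, _, _)) (by fun_prop))
      (by fun_prop) (by fun_prop) (by fun_prop) (by fun_prop)
  have big := hx.big
  have bG' := hx.bG
  have gN := hx.gN
  have gB : bG E.gB x.b ≤ x.Γ := hx.gB
  have hB : 2 ^ x.b ≤ x.B := by have := hx.pow_le; omega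
  have hd : DeadOK x.b x.B x.b (bG E.gB x.b) E.bm := fun P Y A a1 a2 a3 _ a4 a5 =>
    dead_vt E.hB hx.wB le_rfl a1 a2 a3 (by omega)
  have hr := (round_ok E.hN hd (rem_ok (s := s) (g := g) (cur := cur) hp hx) le_rfl le_rfl hx.wN
    hB).mono (T' := x.Γ ^ 3) (by
      have a : E.gN x.b * (4 * bG E.gB x.b + 1) ≤ x.Γ * (4 * x.Γ + 1) :=
        Nat.mul_le_mul gN (by omega)
      have b : 1000 * x.Γ ^ 2 ≤ x.Γ ^ 3 := by rw [pow_succ' _ 2]; exact Nat.mul_le_mul_right _ big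
      nlinarith)
  have hb := hc.bud_le hx
  refine (flush_vt hr (D := x.D) ?_ ⟨_, g, hc, rfl, rfl, rfl, rfl, rfl, le_rfl⟩ hl
    (by omega) hB).mono ?_
  · have a : 3 * x.b * (4 * E.gN x.b) ≤ 3 * x.Γ * (4 * x.Γ) :=
      Nat.mul_le_mul (by omega) (by omega)
    have b : 1000 * x.Γ ^ 2 ≤ x.Γ ^ 3 := by rw [pow_succ' _ 2]; exact Nat.mul_le_mul_right _ big
    unfold Pm.D
    nlinarith
  rintro ⟨s', lv'⟩ t ⟨_, _, ⟨_, g', k1, rfl, rfl, rfl, k2, k3, k4⟩, k5, k6⟩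
  refine ⟨g', k1, k2, k3, ⟨_, hM.trans k4, k5⟩, ?_⟩
  have a := length_le_tot hs
  have b : (8 * x.Γ ^ 3 + 10) * (2 * (x.b + 1)) + 2 ≤ x.Γ ^ 5 := by
    have c : (8 * x.Γ ^ 3 + 10) * (2 * (x.b + 1)) ≤ (8 * x.Γ ^ 3 + 10) * (2 * x.Γ) :=
      Nat.mul_le_mul_left _ (by omega)
    have d : 1000 * x.Γ ^ 4 ≤ x.Γ ^ 5 := by rw [pow_succ' _ 4]; exact Nat.mul_le_mul_right _ big
    have e : x.Γ ^ 1 ≤ x.Γ ^ 4 := Nat.pow_le_pow_right (by omega) (by norm_num)
    nlinarith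
  have c := Nat.mul_le_mul_right (tot src) b
  unfold Pm.Cf
  simp only at k6 ⊢
  rw [mul_add (8 * x.Γ ^ 3 + 10), ← mul_assoc] at k6
  rw [add_mul] at c
  rw [mul_add (x.Γ ^ 5)]
  omega

end Vale.Agent.P305FL
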