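import Vale.Agent.P305FL.Dead

/-!
# One round of a merge
-/

namespace Vale.Agent.P305FL

open Vale.Agent.P305E Vale.Agent.P305C Vale.Agent.P305LC Vale.Agent.P305BL Vale.Agent.P305BG Finset

section prog
variable {σ : Type}

/-- One round: the flow is applied, or the dead part of the closed set is removed. -/
def round (X : P305N.Ops) (bm : ℕ → List Tr → M (List Tr)) (nt : σ → P305N.NT)
    (snt : σ → P305N.NT → σ) (cur : σ → ℕ → ℕ) (rem : σ → Pc → M (σ × PL)) (b U : ℕ) (st : σ)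
    (src : PL) : M (σ × PL × PL) :=
  X.mround b U (nt st) src >>= fun r => Sum.elim
    (fun S : List ℕ × List ℕ => arcsP (nt st).tl S.2 >>= fun E => dead bm b S.1 S.2 E >>= fun d =>
      rem st d.1 >>= fun q => filterP (fun p : ℕ × ℕ => decide (cur q.1 p.1 ≠ 0)) src >>= fun s =>
      appendP q.2 s >>= fun s' => pure (q.1, s', []))
    (fun q : P305N.NT × PL × PL => pure (snt st q.1, q.2.1, q.2.2)) r

theorem impl_round [Rep σ] {X : P305N.Ops} {c : ℕ} {g : ℕ → ℕ} {bm : ℕ → List Tr → M (List Tr)}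
    {nt : σ → P305N.NT} {snt : σ → P305N.NT → σ} {cur : σ → ℕ → ℕ}
    (hX : P305N.NetOK X c g) (hbm : Impl fun p : ℕ × List Tr => bm p.1 p.2) (hnt : Pure nt)
    (hsnt : Pure fun p : σ × P305N.NT => snt p.1 p.2) (hc : Pure fun p : σ × ℕ => cur p.1 p.2)
    {α : Type} [Rep α] {b U : α → ℕ} {st : α → σ} {src : α → PL} {rem : α → σ → Pc → M (σ × PL)}
    (hr : Impl fun p : α × σ × Pc => rem p.1 p.2.1 p.2.2)
    (hb : Pure b) (hU : Pure U) (hs : Pure st) (hsrc : Pure src) :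
    Impl fun a => round X bm nt snt cur (rem a) (b a) (U a) (st a) (src a) := by
  unfold round
  refine Impl.bind (hX.imround.comp (g := fun a => (b a, U a, nt (st a), src a)) (by fun_prop))
    (Impl.sumElim ?_ (Impl.pure ?_) (by fun_prop))
  · refine Impl.bind (by fun_prop) (Impl.bind (impl_dead hbm (by fun_prop) (by fun_prop)
      (by fun_prop) (by fun_prop)) (Impl.bind (hr.comp (g := fun a => (_, _, _)) (by fun_prop))
      (Impl.bind (Impl.filterP (Pure.decide (PPred.ne (Pure.grow ?_) (by fun_prop))) (by fun_prop))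
        (by fun_prop))))
    exact hc.comp (g := fun a => (_, _)) (by fun_prop)
  · exact Pure.pair (hsnt.comp (g := fun a => (_, _)) (by fun_prop)) (by fun_prop)

end prog

/-- What the round needs from the state. `K st V v φ`: the state `st` has the views `V`, `v` and
the credit `φ`. -/
structure RemOK {σ : Type} (d B b U T : ℕ) (nt : σ → P305N.NT) (snt : σ → P305N.NT → σ)
    (cur : σ → ℕ → ℕ) (rem : σ → Pc → M (σ × PL)) (K : σ → P305N.Vw → Vw → ℕ → Prop) : Prop where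
  ok : ∀ st V v φ, K st V v φ → v.OK ∧ (∀ z, cur st z = v.own z) ∧ P305N.Inv b U V (nt st) ∧
    v.live = V.I ∪ V.P ∧ v.dt = V.dt ∧ (∀ p ∈ V.P, 1 + V.deg b p ≤ 4 * v.vol p) ∧
    (∀ y ∈ V.I, 1 ≤ v.vol y) ∧ ∀ p ∈ V.P, V.dt p ≤ 2 ^ b
  mov : ∀ st V v φ src rest don s, K st V v φ → P305N.Inv b U (V.mov src rest don) s →
    V.Am src → V.Am rest → V.Am don → (∀ x, ms src x ≤ V.dt x) → tot rest + tot don ≤ tot src →
    K (snt st s) (V.mov src rest don) { v with dt := (V.mov src rest don).dt } φ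
  rem : ∀ st V v φ D, K st V v φ → Piece V D → (∃ l, IsM D.2.2 l ∧ l.length = D.1.length) →
    Vt d B (rem st D) fun r t => ∃ v' φ', K r.1 (V.del D.1.toFinset D.2.1.toFinset r.2) v' φ' ∧
      (∀ q ∈ r.2, q.1 ∈ V.I ∧ q.1 ∉ D.2.1 ∧ 0 < q.2) ∧
      tot r.2 + U * D.2.1.length ≤ U * D.1.length + V.dts D.1.toFinset D.2.1.toFinset ∧
      v.nx ≤ v'.nx ∧ (∀ x ∈ v'.live, ∀ z < v.nx, v'.own z = x ↔ v.own z = x) ∧
      (∀ x ∈ v'.live, v.vol x ≤ v'.vol x) ∧ t + φ' ≤ φ + T

/-- The specification of `dead`. -/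
def DeadOK (d B b G : ℕ) (bm : ℕ → List Tr → M (List Tr)) : Prop :=
  ∀ P Y E, P.Nodup → Y.Nodup → (∀ e ∈ E, e.1 ∈ P ∧ e.2.2 ∈ Y) → 3 * P.length ≤ 2 ^ b →
    3 * Y.length ≤ 2 ^ b → E.length ≤ 3 * Y.length →
    Vt d B (dead bm b P Y E) fun r t => DeadRes P Y E r.1 r.2 ∧
      t ≤ (P.length + Y.length + E.length + 1) * G

theorem round_ok {σ : Type} {d B b U T L c G : ℕ} {g : ℕ → ℕ} {X : P305N.Ops}
    {bm : ℕ → List Tr → M (List Tr)} {nt : σ → P305N.NT} {snt : σ → P305N.NT → σ}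
    {cur : σ → ℕ → ℕ} {rem : σ → Pc → M (σ × PL)} {K : σ → P305N.Vw → Vw → ℕ → Prop}
    (hX : P305N.NetOK X c g) (hD : DeadOK d B b G bm) (H : RemOK d B b U T nt snt cur rem K)
    (hd : d ≤ b) (hL : L ≤ b) (hB : 2 ^ (c * (b + 1)) ≤ B) (hB' : 2 ^ b ≤ B) :
    RdOK d B L (4 * g b) (g b * (4 * G + 1) + G + T + 2) cur (round X bm nt snt cur rem b U)
      fun st v φ => ∃ V, K st V v φ := by
  refine ⟨fun st v φ ⟨V, h⟩ => ⟨(H.ok _ _ _ _ h).1, (H.ok _ _ _ _ h).2.1⟩, ?_⟩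
  rintro st v φ src ⟨V, h⟩ - hs hle ht
  obtain ⟨ok, hc, inv, hl, hv, hdeg, hvol, hdt⟩ := H.ok _ _ _ _ h
  have p2 : 2 ^ L ≤ 2 ^ b := Nat.pow_le_pow_right (by norm_num) hL
  have hle' : ∀ x, ms src x ≤ V.dt x := fun x => by
    by_cases e : ms src x = 0
    · omega
    · obtain ⟨p, h1, rfl, -⟩ := P305N.ms_pos e
      exact hv ▸ hle _ (hs p h1).1
  have sl := length_le_tot fun p hp => (hs p hp).2
  unfold round
  have am : V.Am src := fun p hp => ⟨mem_union.1 (hl ▸ (hs p hp).1), (hs p hp).2⟩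
  refine ((hX.mround B b U V (nt st) src inv hdt am hle' (by omega) hB).anti hd).bind ?_
  rintro (⟨Ps, Ys⟩ | ⟨s, rest, don⟩) t hr
  · obtain ⟨r1, r2, r3⟩ := hr
    simp only [Sum.elim_inl] at r2 r3 ⊢
    obtain ⟨l1, l2⟩ := clsL_len inv.ok r1
    refine Vt.tbind (cn := true) (arcsP_tri (nt st).tl r1.2.1 fun y hy => ?_) ?_
    · exact (inv.ok.ltI y (r1.2.2.sI (List.mem_toFinset.2 hy))).le.trans hB'
    rintro E t1 ⟨hE, ht1⟩
    rw [inv.tl] at hE
    have l3 := hE.len'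
    refine (hD Ps Ys E r1.1 r1.2.1 (hE.sub r1) l1 l2 l3).bind ?_
    rintro ⟨Dd, Lv⟩ t2 ⟨hr, ht2⟩
    refine (H.rem st V v φ Dd h (dead_piece r1 hE hr) hr.sat).bind ?_
    rintro ⟨st', lk⟩ t3 ⟨v', φ', k1, k2, k3, k4, k5, k6, k7⟩
    obtain ⟨ok', hc', inv', hl', hv', -⟩ := H.ok _ _ _ _ k1
    simp only at k1 k2 k3 k7 hc' hl' hv' hr ht2
    have sub : v'.live ⊆ v.live := by
      rw [hl, hl']
      exact union_subset_union sdiff_subset sdiff_subset
    have q1 : ∀ x ∈ v'.live, decide (cur st' x ≠ 0) = true := fun x hx => by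
      rw [hc', (ok'.self x hx).1]
      exact decide_eq_true fun e => ok'.zero (e ▸ hx)
    have q2 : ∀ x ∈ v.live, decide (cur st' x ≠ 0) = true → x ∈ v'.live := fun x hx e => by
      have e := of_decide_eq_true e
      rw [hc'] at e
      have a := (k5 _ (ok'.own x e) x (ok.self x hx).2).1 rfl
      rw [(ok.self x hx).1] at a
      exact a ▸ ok'.own x e
    have dec := dead_dec inv.ok r1 hr hle' r2 k3 (fun x => decide (cur st' x ≠ 0)) fun x hx => by
      by_contra e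
      have m1 : x ∈ Dd.1 → x ∈ V.P := fun a =>
        r1.2.2.sP (List.mem_toFinset.2 (hr.subP.1.subset a))
      have m2 : x ∈ Dd.2.1 → x ∈ V.I := fun a =>
        r1.2.2.sI (List.mem_toFinset.2 (hr.subY.1.subset a))
      have := q2 x (hl ▸ mem_union.2 (hx.symm.imp m2 m1)) (by simpa using e)
      rw [hl'] at this
      simp only [P305N.Vw.del, mem_union, mem_sdiff, List.mem_toFinset] at this
      rcases hx with hx | hx <;> rcases this with z | z
      · exact inv.ok.dis x z.1 (m1 hx)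
      · exact z.2 hx
      · exact z.2 hx
      · exact inv.ok.dis x (m2 hx) z.1
    have ll := length_le_tot fun p hp => (k2 p hp).2.2
    refine Vt.of_tri (cn := true) ?_
    simp only [Tri_bind, Tri_filterP, Tri_appendP, Tri_pure]
    refine ⟨v', φ', ⟨_, k1⟩, ⟨k4, sub, k5, k6, fun x hx => ?_, by simp [ms], fun p hp => ?_, by simp,
      dec, by simp only [tot_nil]; omega⟩, ?_⟩
    · rw [hv', hv, P305N.ms_append, ms_filter src (fun x => decide (cur st' x ≠ 0)) (q1 x hx)]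
      simp only [P305N.Vw.del, P305N.ms_nil]
      omega
    · rcases List.mem_append.1 hp with hp | hp
      · refine ⟨hl' ▸ mem_union_left _ ?_, (k2 p hp).2.2⟩
        exact mem_sdiff.2 ⟨(k2 p hp).1, by simpa using (k2 p hp).2.1⟩
      · obtain ⟨a1, a2⟩ := List.mem_filter.1 hp
        exact ⟨q2 _ (hs p a1).1 a2, (hs p a1).2⟩
    · rw [tot_append] at dec
      have a4 : (Ps.length + Ys.length + E.length + 1) * G ≤ (4 * (Ps.length + Ys.length) + 1) * G :=
        Nat.mul_le_mul_right _ (by omega)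
      have a5 := Nat.mul_le_mul_right (4 * G + 1) r3
      nlinarith [Nat.zero_le (t * G), Nat.zero_le (tot src * G), Nat.zero_le (tot src * T)]
  · obtain ⟨r1, r2, r3, r4, r5, r6, r7, r8, r9⟩ := hr
    simp only at r1 r2 r3 r4 r5 r6 r7 r8 r9
    refine Vt.pure ⟨_, φ, ⟨_, H.mov st V v φ src rest don s h r1 am r2 r3 hle' r6⟩, ⟨le_rfl, Subset.rfl,
      fun _ _ _ _ => Iff.rfl, fun _ _ => le_rfl, fun x _ => ?_, fun x hx => ?_,
      fun p hp => ⟨hl ▸ mem_union.2 (r2 p hp).1, (r2 p hp).2⟩,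
      fun p hp => ⟨hl ▸ mem_union.2 (r3 p hp).1, (r3 p hp).2⟩, by simp only; omega, r6⟩, ?_⟩
    · have := hle' x
      simp only [P305N.Vw.mov, hv]
      omega
    · simp only at hx ⊢
      rcases mem_union.1 (hl ▸ hx) with hx | hx
      · have := Nat.mul_le_mul_left (4 * g b) (hvol x hx)
        have := r8 x hx
        omega
      · have := Nat.mul_le_mul_left (g b) (hdeg x hx)
        have := r7 x
        nlinarith
    · have : (tot src + 1) * g b ≤ (tot src + 1) * (g b * (4 * G + 1) + G + T + 2) :=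
        Nat.mul_le_mul_left _ (by nlinarith [Nat.zero_le (g b * (4 * G))])
      omega

end Vale.Agent.P305FL
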